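import Vale.Agent.P017.R2.H985.Defs

/-!
# P017, module M1: the Rédei condition of `m p₁ ⋯ pₛ p'`
-/

open Finset

namespace Vale.Agent.P017.R2.H816

open Vale.Agent.P017.H185 (Redei local_symm)
open Vale.Agent.P017.R2.H985

theorem bit_of_isSquare {a : ℤ} {q : ℕ} (h : IsSquare (a : ZMod q)) : bit a q = 0 := by
  unfold bit
  rw [if_neg]
  intro h1
  exact ZMod.nonsquare_of_jacobiSym_eq_neg_one h1 h

theorem bit_one (q : ℕ) : bit 1 q = 0 := by
  unfold bit
  rw [jacobiSym.one_left]
  rfl

theorem bit_mul {a b : ℤ} {q : ℕ} (ha : jacobiSym a q ≠ 0) (hb : jacobiSym b q ≠ 0) :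
    bit (a * b) q = bit a q + bit b q := by
  unfold bit
  rw [jacobiSym.mul_left]
  rcases jacobiSym.trichotomy a q with h | h | h
  · exact absurd h ha
  · rcases jacobiSym.trichotomy b q with h' | h' | h'
    · exact absurd h' hb
    · rw [h, h']; decide
    · rw [h, h']; decide
  · rcases jacobiSym.trichotomy b q with h' | h' | h'
    · exact absurd h' hb
    · rw [h, h']; decide
    · rw [h, h']; decide

theorem jacobi_prod_ne {ι : Type*} (S : Finset ι) (f : ι → ℤ) {q : ℕ}
    (h : ∀ i ∈ S, jacobiSym (f i) q ≠ 0) : jacobiSym (∏ i ∈ S, f i) q ≠ 0 := by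
  classical
  induction S using Finset.induction_on with
  | empty => rw [prod_empty, jacobiSym.one_left]; norm_num
  | insert i S hi ih =>
    rw [prod_insert hi, jacobiSym.mul_left]
    exact mul_ne_zero (h i (mem_insert_self _ _)) (ih fun j hj => h j (mem_insert_of_mem hj))

theorem bit_prod {ι : Type*} (S : Finset ι) (f : ι → ℤ) {q : ℕ}
    (h : ∀ i ∈ S, jacobiSym (f i) q ≠ 0) : bit (∏ i ∈ S, f i) q = ∑ i ∈ S, bit (f i) q := by
  classical
  induction S using Finset.induction_on with
  | empty => rw [prod_empty, sum_empty, bit_one]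
  | insert i S hi ih =>
    have h' : ∀ j ∈ S, jacobiSym (f j) q ≠ 0 := fun j hj => h j (mem_insert_of_mem hj)
    rw [prod_insert hi, sum_insert hi, bit_mul (h i (mem_insert_self _ _)) (jacobi_prod_ne S f h'),
      ih h']

theorem jac_ne {p q : ℕ} (hp : p.Prime) (hq : q.Prime) (hpq : p ≠ q) :
    jacobiSym (p : ℤ) q ≠ 0 := by
  have _ := NeZero.mk hq.ne_zero
  apply jacobiSym.ne_zero
  have : Nat.Coprime p q := (Nat.coprime_primes hp hq).mpr hpq
  simpa [Int.gcd_natCast_natCast] using this

theorem jac_one_ne (q : ℕ) : jacobiSym (1 : ℤ) q ≠ 0 := by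
  rw [jacobiSym.one_left]; norm_num

theorem bit_self {q : ℕ} (_hq : q.Prime) : bit (q : ℤ) q = 0 := by
  apply bit_of_isSquare
  simp

/-- products over the prime factors of `m p₁ ⋯ pₛ p'` -/
theorem prod_primeFactors {M : Type*} [CommMonoid M] {m s : ℕ} (hm : m ≠ 0) (p : Fin s → ℕ) (p' : ℕ)
    (hp : ∀ i, (p i).Prime ∧ ¬ p i ∣ m) (hinj : Function.Injective p) (hp' : p'.Prime)
    (hp'm : ¬ p' ∣ m) (hne : ∀ i, p i ≠ p') (f : ℕ → M) :
    ∏ q ∈ (m * (∏ i, p i) * p').primeFactors, f q =
      (∏ q : PF m, f q) * (∏ i, f (p i)) * f p' := by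
  classical
  have hP0 : ∏ i, p i ≠ 0 := prod_ne_zero_iff.mpr fun i _ => (hp i).1.ne_zero
  have h1 : (∏ i, p i).primeFactors = univ.image p := by
    have : ∏ i, p i = ∏ x ∈ univ.image p, x := by
      rw [prod_image]
      exact fun a _ b _ h => hinj h
    rw [this]
    apply Nat.primeFactors_prod
    intro x hx
    obtain ⟨i, -, rfl⟩ := mem_image.mp hx
    exact (hp i).1
  rw [Nat.primeFactors_mul (mul_ne_zero hm hP0) hp'.ne_zero, Nat.primeFactors_mul hm hP0, h1,
    hp'.primeFactors, prod_union, prod_union, prod_singleton, prod_image]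
  · congr 2
    rw [← prod_coe_sort]
  · exact fun a _ b _ h => hinj h
  · rw [disjoint_left]
    intro x hx hx'
    obtain ⟨i, -, rfl⟩ := mem_image.mp hx'
    exact (hp i).2 (Nat.dvd_of_mem_primeFactors hx)
  · rw [disjoint_singleton_right, mem_union, not_or]
    refine ⟨fun h => hp'm (Nat.dvd_of_mem_primeFactors h), fun h => ?_⟩
    obtain ⟨i, -, hi⟩ := mem_image.mp h
    exact hne i hi

theorem prod_if_dvd {D a : ℕ} (hD : Squarefree D) (ha : a ∣ D) :
    ∏ q ∈ D.primeFactors, (if q ∣ a then q else 1) = a := by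
  have ha0 : a ≠ 0 := by rintro rfl; exact hD.ne_zero (zero_dvd_iff.mp ha)
  rw [← prod_filter]
  conv_rhs => rw [← Nat.prod_primeFactors_of_squarefree (hD.squarefree_of_dvd ha)]
  apply prod_congr _ fun _ _ => rfl
  ext q
  rw [mem_filter, Nat.mem_primeFactors, Nat.mem_primeFactors]
  exact ⟨fun h => ⟨h.1.1, h.2, ha0⟩, fun h => ⟨⟨h.1, h.2.1.trans ha, hD.ne_zero⟩, h.2.1⟩⟩

theorem prod_if_not_dvd {D a : ℕ} (hD : Squarefree D) (ha : a ∣ D) :
    ∏ q ∈ D.primeFactors, (if q ∣ a then 1 else q) = D / a := by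
  have ha0 : a ≠ 0 := by rintro rfl; exact hD.ne_zero (zero_dvd_iff.mp ha)
  have h : (∏ q ∈ D.primeFactors, (if q ∣ a then q else 1)) *
      ∏ q ∈ D.primeFactors, (if q ∣ a then 1 else q) = D := by
    rw [← prod_mul_distrib]
    conv_rhs => rw [← Nat.prod_primeFactors_of_squarefree hD]
    apply prod_congr rfl
    intro q _
    split_ifs <;> simp
  rw [prod_if_dvd hD ha] at h
  conv_rhs => rw [← h]
  rw [Nat.mul_div_cancel_left _ (Nat.pos_of_ne_zero ha0)]

/-- the value of the perturbed Rédei matrix -/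
theorem mulVec_Mat {m : ℕ} (w x : Pat m) (q : PF m) :
    Matrix.mulVec (Mat m w) x q =
      (∑ r : PF m, x r * bit ((r : ℕ) : ℤ) (q : ℕ)) +
        x q * (w q + ∑ r : PF m, bit ((r : ℕ) : ℤ) (q : ℕ)) := by
  have hq : bit ((q : ℕ) : ℤ) (q : ℕ) = 0 := bit_self (Nat.prime_of_mem_primeFactors q.2)
  have h1 : ∑ r ∈ univ.erase q, bit ((r : ℕ) : ℤ) (q : ℕ) = ∑ r : PF m, bit ((r : ℕ) : ℤ) (q : ℕ) := by
    rw [← add_sum_erase univ _ (mem_univ q), hq, zero_add]
  rw [Matrix.mulVec, dotProduct]
  have h2 : ∀ r : PF m, Mat m w q r * x r = x r * bit ((r : ℕ) : ℤ) (q : ℕ) +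
      if r = q then x q * (w q + ∑ r : PF m, bit ((r : ℕ) : ℤ) (q : ℕ)) else 0 := by
    intro r
    unfold Mat
    by_cases hr : r = q
    · rw [if_pos hr, if_pos hr, h1, hr, hq]; ring
    · rw [if_neg hr, if_neg hr]; ring
  rw [sum_congr rfl fun r _ => h2 r, sum_add_distrib, sum_ite_eq' univ q, if_pos (mem_univ _)]

theorem finrank_left {n : Type*} [Fintype n] [DecidableEq n] {K : Type*} [Field K]
    (M : Matrix n n K) :
    Module.finrank K (LinearMap.ker M.vecMulLinear) =
      Module.finrank K (LinearMap.ker M.mulVecLin) := by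
  have h1 := LinearMap.finrank_range_add_finrank_ker M.mulVecLin
  have h2 := LinearMap.finrank_range_add_finrank_ker M.transpose.mulVecLin
  have h3 : Module.finrank K (LinearMap.range M.mulVecLin) =
      Module.finrank K (LinearMap.range M.transpose.mulVecLin) := (Matrix.rank_transpose M).symm
  rw [Matrix.mulVecLin_transpose] at h2 h3
  omega

/-- linear algebra: `M x = ∑ yᵢ φᵢ` forces `y = 0` if the `φᵢ` separate the left kernel -/
theorem y_zero {n : Type*} [Fintype n] [DecidableEq n] {K : Type*} [Field K]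
    (M : Matrix n n K) {s : ℕ} (hs : Module.finrank K (LinearMap.ker M.mulVecLin) = s)
    (φ : Fin s → n → K)
    (hsep : ∀ r : n → K, Matrix.vecMul r M = 0 → (∀ i, dotProduct (φ i) r = 0) → r = 0)
    (x : n → K) (y : Fin s → K) (h : M.mulVec x = ∑ i, y i • φ i) : y = 0 := by
  classical
  let f : LinearMap.ker M.vecMulLinear →ₗ[K] (Fin s → K) :=
    { toFun := fun r i => dotProduct (φ i) (r : n → K)
      map_add' := fun a b => by
        funext i
        simp only [Submodule.coe_add, dotProduct_add, Pi.add_apply]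
      map_smul' := fun c a => by
        funext i
        simp only [SetLike.val_smul, dotProduct_smul, Pi.smul_apply, RingHom.id_apply] }
  have hinj : Function.Injective f := by
    rw [injective_iff_map_eq_zero]
    rintro ⟨r, hr⟩ h0
    apply Subtype.ext
    exact hsep r (by simpa using hr) fun i => congrFun h0 i
  have hsurj : Function.Surjective f := by
    refine (LinearMap.injective_iff_surjective_of_finrank_eq_finrank ?_).mp hinj
    rw [finrank_left, hs, Module.finrank_fin_fun]
  funext i
  obtain ⟨⟨r, hr⟩, hri⟩ := hsurj (Pi.single i 1)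
  have hr' : Matrix.vecMul r M = 0 := by simpa using hr
  have h1 : dotProduct r (M.mulVec x) = 0 := by
    rw [Matrix.dotProduct_mulVec, hr', zero_dotProduct]
  rw [h, dotProduct_sum, sum_congr rfl (g := fun j => y j * (Pi.single i (1 : K) : Fin s → K) j)
    (fun j _ => by
      rw [dotProduct_smul, smul_eq_mul, ← hri, dotProduct_comm]; rfl), sum_eq_single i] at h1
  · simpa using h1
  · intro j _ hj
    simp [hj]
  · intro h; exact absurd (mem_univ _) h

theorem stmtRed : StmtRed := by
  classical
  intro m hm hm30 s p p' hp hinj hp' hp'2 hp'm hne hG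
  obtain ⟨hcork, hR, hL⟩ := hG
  have hm0 : m ≠ 0 := hm.ne_zero
  have hpp : ∀ i, (p i).Prime ∧ ¬ p i ∣ m := fun i => ⟨(hp i).1, (hp i).2.2⟩
  set D := m * (∏ i, p i) * p' with hDdef
  have hmodd : ∀ q : PF m, (q : ℕ) ≠ 2 := by
    intro q hq
    have h2 : 2 ∣ m := hq ▸ Nat.dvd_of_mem_primeFactors q.2
    have := Nat.Coprime.coprime_dvd_left h2 hm30
    norm_num at this
  have hqp : ∀ q : PF m, (q : ℕ).Prime := fun q => Nat.prime_of_mem_primeFactors q.2
  have hqm : ∀ q : PF m, (q : ℕ) ∣ m := fun q => Nat.dvd_of_mem_primeFactors q.2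
  have hcop : m.Coprime (∏ i, p i) :=
    Nat.Coprime.prod_right fun i _ => ((Nat.Prime.coprime_iff_not_dvd (hp i).1).mpr (hp i).2.2).symm
  have hcop' : (m * ∏ i, p i).Coprime p' := by
    apply Nat.Coprime.mul_left
    · exact ((Nat.Prime.coprime_iff_not_dvd hp').mpr hp'm).symm
    · exact Nat.Coprime.prod_left fun i _ => (Nat.coprime_primes (hp i).1 hp').mpr (hne i)
  have hD : Squarefree D := by
    rw [hDdef, Nat.squarefree_mul hcop', Nat.squarefree_mul hcop]
    refine ⟨⟨hm, ?_⟩, hp'.squarefree⟩
    refine Finset.squarefree_prod_of_pairwise_isCoprime ?_ fun i _ => (hp i).1.squarefree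
    intro i _ j _ hij
    exact Nat.coprime_iff_isRelPrime.mp
      ((Nat.coprime_primes (hp i).1 (hp j).1).mpr fun h => hij (hinj h))
  have hprod : ∀ f : ℕ → ℤ, ∏ q ∈ D.primeFactors, f q =
      (∏ q : PF m, f q) * (∏ i, f (p i)) * f p' :=
    fun f => prod_primeFactors hm0 p p' hpp hinj hp' hp'm hne f
  have key : ∀ a : ℕ, a ∣ D → ¬ p' ∣ a →
      (∀ r : ℕ, r.Prime → r ∣ D →
        (¬ r ∣ a → IsSquare (a : ZMod r)) ∧ (r ∣ a → IsSquare ((D / a : ℕ) : ZMod r))) →
      a = 1 := by
    intro a ha hpa hloc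
    have ha1 : (a : ℤ) = (∏ q : PF m, (if (q : ℕ) ∣ a then ((q : ℕ) : ℤ) else 1)) *
        (∏ i, (if p i ∣ a then ((p i : ℕ) : ℤ) else 1)) := by
      have h1 := prod_if_dvd hD ha
      have h2 := hprod fun q => if q ∣ a then (q : ℤ) else 1
      have h3 : (∏ q ∈ D.primeFactors, if q ∣ a then (q : ℤ) else 1) = (a : ℤ) := by
        conv_rhs => rw [← h1]
        push_cast
        rfl
      rw [← h3, h2, if_neg hpa, mul_one]
    have ha2 : ((D / a : ℕ) : ℤ) = (∏ q : PF m, (if (q : ℕ) ∣ a then 1 else ((q : ℕ) : ℤ))) *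
        (∏ i, (if p i ∣ a then 1 else ((p i : ℕ) : ℤ))) * p' := by
      have h1 := prod_if_not_dvd hD ha
      have h2 := hprod fun q => if q ∣ a then 1 else (q : ℤ)
      have h3 : (∏ q ∈ D.primeFactors, if q ∣ a then 1 else (q : ℤ)) = ((D / a : ℕ) : ℤ) := by
        rw [← h1]
        push_cast
        rfl
      rw [← h3, h2, if_neg hpa]
    set M := Mat m ((∑ i, sym m (p i)) + sym m p') with hMdef
    let x : Pat m := fun q => if (q : ℕ) ∣ a then 1 else 0
    let y : Fin s → ZMod 2 := fun i => if p i ∣ a then 1 else 0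
    have hMx : M.mulVec x = ∑ i, y i • sym m (p i) := by
      funext q
      rw [hMdef, mulVec_Mat, Finset.sum_apply]
      simp only [Pi.smul_apply, smul_eq_mul, Pi.add_apply, Finset.sum_apply]
      have hqD : (q : ℕ) ∣ D := ((hqm q).mul_right _).mul_right _
      have hpiq : ∀ i, jacobiSym (p i : ℤ) q ≠ 0 := fun i =>
        jac_ne (hp i).1 (hqp q) (fun h => (hp i).2.2 (h ▸ hqm q))
      have hp'q : jacobiSym (p' : ℤ) q ≠ 0 :=
        jac_ne hp' (hqp q) (fun h => hp'm (h ▸ hqm q))
      by_cases hqa : (q : ℕ) ∣ a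
      · have hx : x q = 1 := if_pos hqa
        have h0 := bit_of_isSquare (a := ((D / a : ℕ) : ℤ)) (q := q)
          (by exact_mod_cast (hloc q (hqp q) hqD).2 hqa)
        have e1 : ∀ r ∈ (univ : Finset (PF m)),
            jacobiSym (if (r : ℕ) ∣ a then 1 else ((r : ℕ) : ℤ)) q ≠ 0 := by
          intro r _
          split_ifs with h
          · exact jac_one_ne _
          · exact jac_ne (hqp r) (hqp q) (fun h' => h (h' ▸ hqa))
        have e2 : ∀ i ∈ (univ : Finset (Fin s)),
            jacobiSym (if p i ∣ a then 1 else ((p i : ℕ) : ℤ)) q ≠ 0 := by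
          intro i _
          split_ifs with h
          · exact jac_one_ne _
          · exact hpiq i
        rw [ha2, bit_mul _ hp'q, bit_mul (jacobi_prod_ne _ _ e1) (jacobi_prod_ne _ _ e2),
          bit_prod _ _ e1, bit_prod _ _ e2] at h0
        · have g1 : ∀ r : PF m, bit (if (r : ℕ) ∣ a then 1 else ((r : ℕ) : ℤ)) q =
              bit ((r : ℕ) : ℤ) q + x r * bit ((r : ℕ) : ℤ) q := by
            intro r
            by_cases h : (r : ℕ) ∣ a
            · rw [if_pos h, bit_one]
              simp only [x, if_pos h, one_mul]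
              exact (CharTwo.add_self_eq_zero _).symm
            · rw [if_neg h]
              simp only [x, if_neg h, zero_mul, add_zero]
          have g2 : ∀ i, bit (if p i ∣ a then 1 else ((p i : ℕ) : ℤ)) q =
              sym m (p i) q + y i * sym m (p i) q := by
            intro i
            by_cases h : p i ∣ a
            · rw [if_pos h, bit_one]
              simp only [y, if_pos h, one_mul]
              exact (CharTwo.add_self_eq_zero _).symm
            · rw [if_neg h]
              simp only [y, if_neg h, zero_mul, add_zero]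
              rfl
          rw [sum_congr rfl fun r _ => g1 r, sum_congr rfl fun i _ => g2 i, sum_add_distrib,
            sum_add_distrib] at h0
          have g3 : bit (p' : ℤ) q = sym m p' q := rfl
          rw [g3] at h0
          rw [hx, one_mul, ← sub_eq_zero, CharTwo.sub_eq_add]
          linear_combination h0
        · rw [jacobiSym.mul_left]
          exact mul_ne_zero (jacobi_prod_ne _ _ e1) (jacobi_prod_ne _ _ e2)
      · have hx : x q = 0 := if_neg hqa
        have h0 := bit_of_isSquare (a := (a : ℤ)) (q := q)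
          (by exact_mod_cast (hloc q (hqp q) hqD).1 hqa)
        have e1 : ∀ r ∈ (univ : Finset (PF m)),
            jacobiSym (if (r : ℕ) ∣ a then ((r : ℕ) : ℤ) else 1) q ≠ 0 := by
          intro r _
          split_ifs with h
          · exact jac_ne (hqp r) (hqp q) (fun h' => hqa (h' ▸ h))
          · exact jac_one_ne _
        have e2 : ∀ i ∈ (univ : Finset (Fin s)),
            jacobiSym (if p i ∣ a then ((p i : ℕ) : ℤ) else 1) q ≠ 0 := by
          intro i _
          split_ifs with h
          · exact hpiq i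
          · exact jac_one_ne _
        rw [ha1, bit_mul (jacobi_prod_ne _ _ e1) (jacobi_prod_ne _ _ e2),
          bit_prod _ _ e1, bit_prod _ _ e2] at h0
        have g1 : ∀ r : PF m, bit (if (r : ℕ) ∣ a then ((r : ℕ) : ℤ) else 1) q =
            x r * bit ((r : ℕ) : ℤ) q := by
          intro r
          by_cases h : (r : ℕ) ∣ a
          · rw [if_pos h]
            simp only [x, if_pos h, one_mul]
          · rw [if_neg h, bit_one]
            simp only [x, if_neg h, zero_mul]
        have g2 : ∀ i, bit (if p i ∣ a then ((p i : ℕ) : ℤ) else 1) q =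
            y i * sym m (p i) q := by
          intro i
          by_cases h : p i ∣ a
          · rw [if_pos h]
            simp only [y, if_pos h, one_mul]
            rfl
          · rw [if_neg h, bit_one]
            simp only [y, if_neg h, zero_mul]
        rw [sum_congr rfl fun r _ => g1 r, sum_congr rfl fun i _ => g2 i] at h0
        rw [hx, zero_mul, add_zero, ← sub_eq_zero, CharTwo.sub_eq_add]
        exact h0
    have hy : y = 0 := y_zero M hcork _ hL x y hMx
    have hpia : ∀ i, ¬ p i ∣ a := by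
      intro i h
      have h1 : y i = 1 := if_pos h
      rw [hy] at h1
      exact absurd h1 zero_ne_one
    have ha3 : (a : ℤ) = ∏ q : PF m, (if (q : ℕ) ∣ a then ((q : ℕ) : ℤ) else 1) := by
      rw [ha1, prod_eq_one (s := (univ : Finset (Fin s))) fun i _ => if_neg (hpia i), mul_one]
    have hx : x = 0 := by
      apply hR x
      · rw [hMx, hy]
        simp
      · intro i
        have hpD : p i ∣ D := ((dvd_prod_of_mem p (mem_univ i)).mul_left _).mul_right _
        have h0 := bit_of_isSquare (a := (a : ℤ)) (q := p i)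
          (by exact_mod_cast (hloc (p i) (hp i).1 hpD).1 (hpia i))
        have e1 : ∀ r ∈ (univ : Finset (PF m)),
            jacobiSym (if (r : ℕ) ∣ a then ((r : ℕ) : ℤ) else 1) (p i) ≠ 0 := by
          intro r _
          split_ifs with h
          · exact jac_ne (hqp r) (hp i).1 (fun h' => (hp i).2.2 (h' ▸ hqm r))
          · exact jac_one_ne _
        rw [ha3, bit_prod _ _ e1] at h0
        rw [← h0, dotProduct]
        apply sum_congr rfl
        intro r _
        by_cases h : (r : ℕ) ∣ a
        · rw [if_pos h]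
          simp only [x, if_pos h, mul_one]
          have hrodd : Odd (r : ℕ) := (hqp r).odd_of_ne_two (hmodd r)
          unfold sym bit
          rw [jacobiSym.quadratic_reciprocity_one_mod_four' hrodd (hp i).2.1]
        · rw [if_neg h, bit_one]
          simp only [x, if_neg h, mul_zero]
    have h4 : (a : ℤ) = 1 := by
      rw [ha3]
      apply prod_eq_one
      intro r _
      rw [if_neg]
      intro h
      have h1 : x r = 1 := if_pos h
      rw [hx] at h1
      exact absurd h1 zero_ne_one
    exact_mod_cast h4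
  intro a ha hloc
  by_cases hpa : p' ∣ a
  · right
    obtain ⟨c, hc⟩ := ha
    have hD0 := hD.ne_zero
    have ha0 : a ≠ 0 := by rintro rfl; exact hD0 (by rw [hc, zero_mul])
    have h1 : D / a = c := by
      rw [hc]; exact Nat.mul_div_cancel_left c (Nat.pos_of_ne_zero ha0)
    have h2 := key (D / a) (Nat.div_dvd_of_dvd ⟨c, hc⟩) (by
      rw [h1]
      intro hpc
      have : p' * p' ∣ D := by rw [hc]; exact Nat.mul_dvd_mul hpa hpc
      exact hp'.one_lt.ne' (Nat.isUnit_iff.mp (hD p' this))) (local_symm hD ⟨c, hc⟩ hloc)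
    rw [h1] at h2
    rw [hc, h2, mul_one]
  · left; exact key a ha hpa hloc

end Vale.Agent.P017.R2.H816

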